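import Vale.Agent.P098.Six.S20.Root

/-!
# P098, six dimensions: checked pieces of the tree
-/

namespace Vale.Agent.P098.Six.S20

/-- A piece of the tree. -/
noncomputable def tree140 : Tree LeafX :=
  .s1
    (.s0
    (.s2
    (.leaf (.box ⟨481, 29, -2048, 130, 107, 533, 389364, 0, 0, 0, 0, 0, 0⟩ ⟨0, 0, 0, 0, 0, 0, 510806, 0, 0, 0, 0, 0, 0⟩ ⟨0, 0, 0, 0, 0, 0, 510806, 0, 0, 0, 0, 0, 0⟩ ⟨0, 0, 0, 0, 0, 0, 742341, 0, 0, 0, 0, 0, 0⟩ ⟨0, 0, 0, 0, 0, 0, 742341, 0, 0, 0, 0, 0, 0⟩ ⟨466, 9, -2048, 36, 29, 524, 1357790, 0, 0, 0, 0, 0, 0⟩))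
    (.leaf (.box ⟨760, 9, -2048, 189, 36, 595, 477944, 0, 0, 0, 0, 0, 0⟩ ⟨0, 0, 0, 0, 0, 0, 627600, 0, 0, 0, 0, 0, 0⟩ ⟨0, 0, 0, 0, 0, 0, 627600, 0, 0, 0, 0, 0, 0⟩ ⟨0, 0, 0, 0, 0, 0, 913700, 0, 0, 0, 0, 0, 0⟩ ⟨0, 0, 0, 0, 0, 0, 913700, 0, 0, 0, 0, 0, 0⟩ ⟨689, 3, -2048, 52, 10, 582, 1679179, 0, 0, 0, 0, 0, 0⟩)))
    (.s2
    (.leaf (.box ⟨565, 60, -2048, 194, 6, 622, 626222, 0, 0, 0, 0, 0, 0⟩ ⟨0, 0, 0, 0, 0, 0, 820545, 0, 0, 0, 0, 0, 0⟩ ⟨0, 0, 0, 0, 0, 0, 820545, 0, 0, 0, 0, 0, 0⟩ ⟨0, 0, 0, 0, 0, 0, 1189728, 0, 0, 0, 0, 0, 0⟩ ⟨0, 0, 0, 0, 0, 0, 1189728, 0, 0, 0, 0, 0, 0⟩ ⟨504, 18, -2048, 53, 1, 607, 2162847, 0, 0, 0, 0, 0, 0⟩))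
    (.leaf (.box ⟨1463, 45, -2048, 306, -87, 820, 771516, 0, 0, 0, 0, 0, 0⟩ ⟨0, 0, 0, 0, 0, 0, 1011603, 0, 0, 0, 0, 0, 0⟩ ⟨0, 0, 0, 0, 0, 0, 1011603, 0, 0, 0, 0, 0, 0⟩ ⟨0, 0, 0, 0, 0, 0, 1468621, 0, 0, 0, 0, 0, 0⟩ ⟨0, 0, 0, 0, 0, 0, 1468621, 0, 0, 0, 0, 0, 0⟩ ⟨1386, 13, -2048, 83, -25, 791, 2678867, 0, 0, 0, 0, 0, 0⟩))))
    (.leaf (.box ⟨1057, -38, -2048, 514, 148, 725, 399557, 0, 0, 0, 0, 0, 0⟩ ⟨0, 0, 0, 0, 0, 0, 524942, 0, 0, 0, 0, 0, 0⟩ ⟨0, 0, 0, 0, 0, 0, 524942, 0, 0, 0, 0, 0, 0⟩ ⟨0, 0, 0, 0, 0, 0, 765007, 0, 0, 0, 0, 0, 0⟩ ⟨0, 0, 0, 0, 0, 0, 765007, 0, 0, 0, 0, 0, 0⟩ ⟨962, -10, -2048, 134, 34, 698, 1409680, 0, 0, 0, 0, 0, 0⟩))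

/-- A piece of the tree. -/
noncomputable def tree141 : Tree LeafX :=
  .s0
    (.s2
    (.s0
    (.s0
    (.leaf (.box ⟨337, -5, -2048, 27, 104, 321, 203529, 0, 0, 0, 0, 0, 0⟩ ⟨0, 0, 0, 0, 0, 0, 268346, 0, 0, 0, 0, 0, 0⟩ ⟨0, 0, 0, 0, 0, 0, 268346, 0, 0, 0, 0, 0, 0⟩ ⟨0, 0, 0, 0, 0, 0, 393736, 0, 0, 0, 0, 0, 0⟩ ⟨0, 0, 0, 0, 0, 0, 393736, 0, 0, 0, 0, 0, 0⟩ ⟨294, -1, -2048, 8, 29, 327, 739093, 0, 0, 0, 0, 0, 0⟩))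
    (.s2
    (.leaf (.box ⟨273, -4, -2048, 21, 101, 334, 231792, 0, 0, 0, 0, 0, 0⟩ ⟨0, 0, 0, 0, 0, 0, 305525, 0, 0, 0, 0, 0, 0⟩ ⟨0, 0, 0, 0, 0, 0, 305525, 0, 0, 0, 0, 0, 0⟩ ⟨0, 0, 0, 0, 0, 0, 448048, 0, 0, 0, 0, 0, 0⟩ ⟨0, 0, 0, 0, 0, 0, 448048, 0, 0, 0, 0, 0, 0⟩ ⟨277, -1, -2197, 6, 30, 364, 839807, 0, 0, 0, 0, 0, 0⟩))
    (.leaf (.box ⟨265, -4, -2048, 25, 95, 342, 250463, 0, 0, 0, 0, 0, 0⟩ ⟨0, 0, 0, 0, 0, 0, 330198, 0, 0, 0, 0, 0, 0⟩ ⟨0, 0, 0, 0, 0, 0, 330198, 0, 0, 0, 0, 0, 0⟩ ⟨0, 0, 0, 0, 0, 0, 484410, 0, 0, 0, 0, 0, 0⟩ ⟨0, 0, 0, 0, 0, 0, 484410, 0, 0, 0, 0, 0, 0⟩ ⟨252, -1, -2048, 8, 26, 347, 908886, 0, 0, 0, 0, 0, 0⟩))))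
    (.s0
    (.s2
    (.s1
    (.leaf (.box ⟨176, -1, -2048, 11, 89, 342, 264549, 0, 0, 0, 0, 0, 0⟩ ⟨0, 0, 0, 0, 0, 0, 348580, 0, 0, 0, 0, 0, 0⟩ ⟨0, 0, 0, 0, 0, 0, 348580, 0, 0, 0, 0, 0, 0⟩ ⟨0, 0, 0, 0, 0, 0, 510844, 0, 0, 0, 0, 0, 0⟩ ⟨0, 0, 0, 0, 0, 0, 510844, 0, 0, 0, 0, 0, 0⟩ ⟨281, -1, -3154, 6, 39, 537, 955739, 0, 0, 0, 0, 0, 0⟩))
    (.leaf (.box ⟨185, -3, -2048, 15, 101, 364, 270176, 0, 0, 0, 0, 0, 0⟩ ⟨0, 0, 0, 0, 0, 0, 356466, 0, 0, 0, 0, 0, 0⟩ ⟨0, 0, 0, 0, 0, 0, 356466, 0, 0, 0, 0, 0, 0⟩ ⟨0, 0, 0, 0, 0, 0, 523739, 0, 0, 0, 0, 0, 0⟩ ⟨0, 0, 0, 0, 0, 0, 523739, 0, 0, 0, 0, 0, 0⟩ ⟨265, -1, -3292, 6, 45, 592, 986796, 0, 0, 0, 0, 0, 0⟩)))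
    (.s1
    (.leaf (.box ⟨191, -1, -2048, 14, 82, 356, 287298, 0, 0, 0, 0, 0, 0⟩ ⟨0, 0, 0, 0, 0, 0, 378685, 0, 0, 0, 0, 0, 0⟩ ⟨0, 0, 0, 0, 0, 0, 378685, 0, 0, 0, 0, 0, 0⟩ ⟨0, 0, 0, 0, 0, 0, 555329, 0, 0, 0, 0, 0, 0⟩ ⟨0, 0, 0, 0, 0, 0, 555329, 0, 0, 0, 0, 0, 0⟩ ⟨246, -1, -2754, 6, 30, 482, 1040851, 0, 0, 0, 0, 0, 0⟩))
    (.leaf (.box ⟨175, -3, -2048, 17, 96, 372, 297319, 0, 0, 0, 0, 0, 0⟩ ⟨0, 0, 0, 0, 0, 0, 392309, 0, 0, 0, 0, 0, 0⟩ ⟨0, 0, 0, 0, 0, 0, 392309, 0, 0, 0, 0, 0, 0⟩ ⟨0, 0, 0, 0, 0, 0, 576490, 0, 0, 0, 0, 0, 0⟩ ⟨0, 0, 0, 0, 0, 0, 576490, 0, 0, 0, 0, 0, 0⟩ ⟨202, -1, -2502, 6, 32, 459, 1086649, 0, 0, 0, 0, 0, 0⟩))))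
    (.s2
    (.s1
    (.leaf (.box ⟨185, -1, -2048, 14, 83, 371, 302124, 0, 0, 0, 0, 0, 0⟩ ⟨0, 0, 0, 0, 0, 0, 397928, 0, 0, 0, 0, 0, 0⟩ ⟨0, 0, 0, 0, 0, 0, 397928, 0, 0, 0, 0, 0, 0⟩ ⟨0, 0, 0, 0, 0, 0, 582703, 0, 0, 0, 0, 0, 0⟩ ⟨0, 0, 0, 0, 0, 0, 582703, 0, 0, 0, 0, 0, 0⟩ ⟨212, -1, -2384, 6, 27, 433, 1087826, 0, 0, 0, 0, 0, 0⟩))
    (.leaf (.box ⟨173, -2, -2048, 14, 94, 388, 308795, 0, 0, 0, 0, 0, 0⟩ ⟨0, 0, 0, 0, 0, 0, 407274, 0, 0, 0, 0, 0, 0⟩ ⟨0, 0, 0, 0, 0, 0, 407274, 0, 0, 0, 0, 0, 0⟩ ⟨0, 0, 0, 0, 0, 0, 597976, 0, 0, 0, 0, 0, 0⟩ ⟨0, 0, 0, 0, 0, 0, 597976, 0, 0, 0, 0, 0, 0⟩ ⟨243, -1, -3093, 6, 39, 589, 1124523, 0, 0, 0, 0, 0, 0⟩)))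
    (.leaf (.box ⟨230, -3, -2048, 27, 83, 392, 328967, 0, 0, 0, 0, 0, 0⟩ ⟨0, 0, 0, 0, 0, 0, 433500, 0, 0, 0, 0, 0, 0⟩ ⟨0, 0, 0, 0, 0, 0, 433500, 0, 0, 0, 0, 0, 0⟩ ⟨0, 0, 0, 0, 0, 0, 635407, 0, 0, 0, 0, 0, 0⟩ ⟨0, 0, 0, 0, 0, 0, 635407, 0, 0, 0, 0, 0, 0⟩ ⟨229, -1, -2048, 8, 23, 393, 1189364, 0, 0, 0, 0, 0, 0⟩)))))
    (.s2
    (.s0
    (.leaf (.box ⟨343, -5, -2048, 41, 99, 342, 236167, 0, 0, 0, 0, 0, 0⟩ ⟨0, 0, 0, 0, 0, 0, 311327, 0, 0, 0, 0, 0, 0⟩ ⟨0, 0, 0, 0, 0, 0, 311327, 0, 0, 0, 0, 0, 0⟩ ⟨0, 0, 0, 0, 0, 0, 456657, 0, 0, 0, 0, 0, 0⟩ ⟨0, 0, 0, 0, 0, 0, 456657, 0, 0, 0, 0, 0, 0⟩ ⟨317, -1, -2048, 12, 28, 346, 856457, 0, 0, 0, 0, 6265877609, 0⟩))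
    (.leaf (.box ⟨323, -4, -2048, 39, 90, 391, 314334, 0, 0, 0, 0, 0, 0⟩ ⟨0, 0, 0, 0, 0, 0, 414343, 0, 0, 0, 0, 0, 0⟩ ⟨0, 0, 0, 0, 0, 0, 414343, 0, 0, 0, 0, 0, 0⟩ ⟨0, 0, 0, 0, 0, 0, 607685, 0, 0, 0, 0, 0, 0⟩ ⟨0, 0, 0, 0, 0, 0, 607685, 0, 0, 0, 0, 0, 0⟩ ⟨313, -1, -2048, 11, 25, 392, 1139313, 0, 0, 0, 0, 0, 0⟩)))
    (.leaf (.skip 8 0))))
    (.s2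
    (.s0
    (.s2
    (.leaf (.box ⟨285, -3, -2048, 39, 78, 419, 344836, 0, 0, 0, 0, 0, 0⟩ ⟨0, 0, 0, 0, 0, 0, 453976, 0, 0, 0, 0, 0, 0⟩ ⟨0, 0, 0, 0, 0, 0, 453976, 0, 0, 0, 0, 0, 0⟩ ⟨0, 0, 0, 0, 0, 0, 664189, 0, 0, 0, 0, 0, 0⟩ ⟨0, 0, 0, 0, 0, 0, 664189, 0, 0, 0, 0, 0, 0⟩ ⟨314, -1, -2048, 11, 22, 424, 1236964, 0, 0, 0, 0, 0, 0⟩))
    (.leaf (.box ⟨344, -5, -2048, 51, 72, 448, 375650, 0, 0, 0, 0, 0, 0⟩ ⟨0, 0, 0, 0, 0, 0, 494871, 0, 0, 0, 0, 0, 0⟩ ⟨0, 0, 0, 0, 0, 0, 494871, 0, 0, 0, 0, 0, 0⟩ ⟨0, 0, 0, 0, 0, 0, 724947, 0, 0, 0, 0, 0, 0⟩ ⟨0, 0, 0, 0, 0, 0, 724947, 0, 0, 0, 0, 0, 0⟩ ⟨329, -1, -2048, 14, 20, 444, 1354847, 0, 0, 0, 0, 0, 0⟩)))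
    (.leaf (.box ⟨695, -5, -2048, 88, 45, 536, 444174, 0, 0, 0, 0, 0, 0⟩ ⟨0, 0, 0, 0, 0, 0, 584339, 0, 0, 0, 0, 0, 0⟩ ⟨0, 0, 0, 0, 0, 0, 584339, 0, 0, 0, 0, 0, 0⟩ ⟨0, 0, 0, 0, 0, 0, 853750, 0, 0, 0, 0, 0, 0⟩ ⟨0, 0, 0, 0, 0, 0, 853750, 0, 0, 0, 0, 0, 0⟩ ⟨604, -1, -2048, 23, 12, 524, 1584108, 0, 0, 0, 0, 0, 0⟩)))
    (.leaf (.box ⟨1488, -17, -2048, 192, 54, 567, 411784, 0, 0, 0, 0, 140158750430, 0⟩ ⟨0, 0, 0, 0, 0, 0, 542664, 0, 0, 0, 0, 0, 0⟩ ⟨0, 0, 0, 0, 0, 0, 542664, 0, 0, 0, 0, 0, 0⟩ ⟨0, 0, 0, 0, 0, 0, 795502, 0, 0, 0, 0, 0, 0⟩ ⟨0, 0, 0, 0, 0, 0, 795502, 0, 0, 0, 0, 0, 0⟩ ⟨1280, -4, -2048, 50, 15, 551, 1489482, 0, 0, 0, 0, 102534842393, 0⟩)))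

/-- A piece of the tree. -/
noncomputable def tree142 : Tree LeafX :=
  .s0
    (.s2
    (.s0
    (.s0
    (.leaf (.box ⟨257, -14, -2048, 49, 140, 361, 215689, 0, 0, 0, 0, 0, 0⟩ ⟨0, 0, 0, 0, 0, 0, 285067, 0, 0, 0, 0, 0, 0⟩ ⟨0, 0, 0, 0, 0, 0, 285067, 0, 0, 0, 0, 0, 0⟩ ⟨0, 0, 0, 0, 0, 0, 420241, 0, 0, 0, 0, 0, 0⟩ ⟨0, 0, 0, 0, 0, 0, 420241, 0, 0, 0, 0, 0, 0⟩ ⟨230, -4, -2048, 14, 38, 371, 799211, 0, 0, 0, 0, 0, 0⟩))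
    (.leaf (.box ⟨224, -11, -2048, 42, 149, 368, 245705, 0, 0, 0, 0, 0, 0⟩ ⟨0, 0, 0, 0, 0, 0, 324677, 0, 0, 0, 0, 0, 0⟩ ⟨0, 0, 0, 0, 0, 0, 324677, 0, 0, 0, 0, 0, 0⟩ ⟨0, 0, 0, 0, 0, 0, 478456, 0, 0, 0, 0, 0, 0⟩ ⟨0, 0, 0, 0, 0, 0, 478456, 0, 0, 0, 0, 0, 0⟩ ⟨220, -4, -2048, 15, 37, 383, 908984, 0, 0, 0, 0, 10339553116, 0⟩)))
    (.s0
    (.s3
    (.leaf (.box ⟨208, -12, -2048, 48, 129, 389, 280603, 0, 0, 0, 0, 0, 0⟩ ⟨0, 0, 0, 0, 0, 0, 372244, 0, 0, 0, 0, 0, 0⟩ ⟨0, 0, 0, 0, 0, 0, 372244, 0, 0, 0, 0, 0, 0⟩ ⟨0, 0, 0, 0, 0, 0, 552771, 0, 0, 0, 0, 0, 0⟩ ⟨0, 0, 0, 0, 0, 0, 552771, 0, 0, 0, 0, 0, 0⟩ ⟨196, -3, -2048, 13, 34, 396, 1073274, 0, 0, 0, 0, 0, 0⟩))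
    (.leaf (.box ⟨208, -10, -2048, 41, 110, 397, 346983, 0, 0, 0, 0, 0, 0⟩ ⟨0, 0, 0, 0, 0, 0, 446544, 0, 0, 0, 0, 0, 0⟩ ⟨0, 0, 0, 0, 0, 0, 446544, 0, 0, 0, 0, 0, 0⟩ ⟨0, 0, 0, 0, 0, 0, 626230, 0, 0, 0, 0, 0, 0⟩ ⟨0, 0, 0, 0, 0, 0, 626230, 0, 0, 0, 0, 0, 0⟩ ⟨207, -3, -2048, 14, 37, 402, 1047893, 0, 0, 0, 0, 6539206033, 0⟩)))
    (.leaf (.box ⟨196, -12, -2048, 53, 124, 410, 320743, 0, 0, 0, 0, 0, 0⟩ ⟨0, 0, 0, 0, 0, 0, 423586, 0, 0, 0, 0, 0, 0⟩ ⟨0, 0, 0, 0, 0, 0, 423586, 0, 0, 0, 0, 0, 0⟩ ⟨0, 0, 0, 0, 0, 0, 623506, 0, 0, 0, 0, 0, 0⟩ ⟨0, 0, 0, 0, 0, 0, 623506, 0, 0, 0, 0, 0, 0⟩ ⟨211, -3, -2048, 15, 34, 419, 1180815, 0, 0, 0, 0, 0, 0⟩))))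
    (.leaf (.box ⟨442, -17, -2048, 124, 175, 400, 259259, 0, 0, 0, 0, 39261243704, 0⟩ ⟨0, 0, 0, 0, 0, 0, 342327, 0, 0, 0, 0, 0, 0⟩ ⟨0, 0, 0, 0, 0, 0, 342327, 0, 0, 0, 0, 0, 0⟩ ⟨0, 0, 0, 0, 0, 0, 503723, 0, 0, 0, 0, 0, 0⟩ ⟨0, 0, 0, 0, 0, 0, 503723, 0, 0, 0, 0, 0, 0⟩ ⟨401, -5, -2048, 35, 48, 407, 953054, 0, 0, 0, 0, 51637474159, 0⟩)))
    (.s2
    (.s0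
    (.leaf (.box ⟨287, -12, -2048, 60, 118, 455, 366482, 0, 0, 0, 0, 0, 0⟩ ⟨0, 0, 0, 0, 0, 0, 483812, 0, 0, 0, 0, 0, 0⟩ ⟨0, 0, 0, 0, 0, 0, 483812, 0, 0, 0, 0, 0, 0⟩ ⟨0, 0, 0, 0, 0, 0, 711645, 0, 0, 0, 0, 0, 0⟩ ⟨0, 0, 0, 0, 0, 0, 711645, 0, 0, 0, 0, 0, 0⟩ ⟨278, -3, -2048, 17, 32, 457, 1345045, 0, 0, 0, 0, 0, 0⟩))
    (.leaf (.box ⟨407, -11, -2048, 70, 90, 532, 476144, 0, 0, 0, 0, 0, 0⟩ ⟨0, 0, 0, 0, 0, 0, 628049, 0, 0, 0, 0, 0, 0⟩ ⟨0, 0, 0, 0, 0, 0, 628049, 0, 0, 0, 0, 0, 0⟩ ⟨0, 0, 0, 0, 0, 0, 922284, 0, 0, 0, 0, 0, 0⟩ ⟨0, 0, 0, 0, 0, 0, 922284, 0, 0, 0, 0, 0, 0⟩ ⟨348, -3, -2048, 18, 25, 527, 1735223, 0, 0, 0, 0, 0, 0⟩)))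
    (.leaf (.skip 8 0)))

/-- A piece of the tree. -/
noncomputable def tree143 : Tree LeafX :=
  .s2
    (.s0
    (.s1
    (.s0
    (.s3
    (.leaf (.box ⟨206, -26, -2048, 73, 181, 397, 241672, 0, 0, 0, 0, 0, 0⟩ ⟨0, 0, 0, 0, 0, 0, 321423, 0, 0, 0, 0, 0, 0⟩ ⟨0, 0, 0, 0, 0, 0, 321423, 0, 0, 0, 0, 0, 0⟩ ⟨0, 0, 0, 0, 0, 0, 479732, 0, 0, 0, 0, 0, 0⟩ ⟨0, 0, 0, 0, 0, 0, 479732, 0, 0, 0, 0, 0, 0⟩ ⟨192, -7, -2048, 19, 47, 412, 945335, 0, 0, 0, 0, 0, 0⟩))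
    (.leaf (.box ⟨209, -21, -2048, 62, 153, 411, 303222, 0, 0, 0, 0, 0, 0⟩ ⟨0, 0, 0, 0, 0, 0, 391089, 0, 0, 0, 0, 0, 0⟩ ⟨0, 0, 0, 0, 0, 0, 391089, 0, 0, 0, 0, 0, 0⟩ ⟨0, 0, 0, 0, 0, 0, 550658, 0, 0, 0, 0, 0, 0⟩ ⟨0, 0, 0, 0, 0, 0, 550658, 0, 0, 0, 0, 0, 0⟩ ⟨194, -7, -2048, 20, 51, 421, 930180, 0, 0, 0, 0, 624600614, 0⟩)))
    (.leaf (.box ⟨237, -21, -2048, 68, 190, 423, 313989, 0, 0, 0, 0, 0, 0⟩ ⟨0, 0, 0, 0, 0, 0, 415727, 0, 0, 0, 0, 0, 0⟩ ⟨0, 0, 0, 0, 0, 0, 415727, 0, 0, 0, 0, 0, 0⟩ ⟨0, 0, 0, 0, 0, 0, 614996, 0, 0, 0, 0, 0, 0⟩ ⟨0, 0, 0, 0, 0, 0, 614996, 0, 0, 0, 0, 0, 0⟩ ⟨222, -7, -2048, 23, 48, 441, 1181155, 0, 0, 0, 0, 11585956321, 0⟩)))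
    (.leaf (.box ⟨306, -52, -2048, 141, 241, 449, 275493, 0, 0, 0, 0, 0, 0⟩ ⟨0, 0, 0, 0, 0, 0, 365522, 0, 0, 0, 0, 0, 0⟩ ⟨0, 0, 0, 0, 0, 0, 365522, 0, 0, 0, 0, 0, 0⟩ ⟨0, 0, 0, 0, 0, 0, 542953, 0, 0, 0, 0, 0, 0⟩ ⟨0, 0, 0, 0, 0, 0, 542953, 0, 0, 0, 0, 0, 0⟩ ⟨272, -14, -2048, 38, 64, 469, 1055138, 0, 0, 0, 0, 0, 0⟩)))
    (.leaf (.box ⟨386, -47, -2048, 166, 240, 501, 409430, 0, 0, 0, 0, 1526787963, 0⟩ ⟨0, 0, 0, 0, 0, 0, 541758, 0, 0, 0, 0, 0, 0⟩ ⟨0, 0, 0, 0, 0, 0, 541758, 0, 0, 0, 0, 0, 0⟩ ⟨0, 0, 0, 0, 0, 0, 800469, 0, 0, 0, 0, 0, 0⟩ ⟨0, 0, 0, 0, 0, 0, 800469, 0, 0, 0, 0, 0, 0⟩ ⟨413, -15, -2048, 54, 57, 519, 1532116, 0, 0, 0, 0, 13765524478, 0⟩)))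
    (.leaf (.skip 8 0))

/-- A piece of the tree. -/
noncomputable def tree144 : Tree LeafX :=
  .s1
    (.s2
    (.s0
    (.s2
    (.leaf (.box ⟨1340, -10, -2048, 256, -5, 723, 563013, 0, 0, 0, 0, 0, 0⟩ ⟨0, 0, 0, 0, 0, 0, 740290, 0, 0, 0, 0, 0, 0⟩ ⟨0, 0, 0, 0, 0, 0, 740290, 0, 0, 0, 0, 0, 0⟩ ⟨0, 0, 0, 0, 0, 0, 1080510, 0, 0, 0, 0, 0, 0⟩ ⟨0, 0, 0, 0, 0, 0, 1080510, 0, 0, 0, 0, 0, 0⟩ ⟨1212, -3, -2048, 70, -1, 696, 1999378, 0, 0, 0, 0, 0, 0⟩))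
    (.leaf (.box ⟨2048, -22, -1584, 303, -27, 681, 612337, 0, 0, 0, 0, 408594690684, 0⟩ ⟨0, 0, 0, 0, 0, 0, 805622, 0, 0, 0, 0, 0, 0⟩ ⟨0, 0, 0, 0, 0, 0, 805622, 0, 0, 0, 0, 0, 0⟩ ⟨0, 0, 0, 0, 0, 0, 1177210, 0, 0, 0, 0, 0, 0⟩ ⟨0, 0, 0, 0, 0, 0, 1177210, 0, 0, 0, 0, 0, 0⟩ ⟨2048, -7, -1781, 90, -8, 723, 2185049, 0, 0, 0, 0, 392672669042, 0⟩)))
    (.s2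
    (.leaf (.box ⟨2048, 15, -1016, 313, -141, 760, 869009, 0, 0, 0, 0, 0, 0⟩ ⟨0, 0, 0, 0, 0, 0, 1141300, 0, 0, 0, 0, 0, 0⟩ ⟨0, 0, 0, 0, 0, 0, 1141300, 0, 0, 0, 0, 0, 0⟩ ⟨0, 0, 0, 0, 0, 0, 1662090, 0, 0, 0, 0, 0, 0⟩ ⟨0, 0, 0, 0, 0, 0, 1662090, 0, 0, 0, 0, 0, 0⟩ ⟨2048, 5, -1094, 88, -40, 749, 3057074, 0, 0, 0, 0, 0, 0⟩))
    (.leaf (.box ⟨2048, -1, -95, 215, -98, 393, 918745, 0, 0, 0, 0, 1166707776206, 0⟩ ⟨0, 0, 0, 0, 0, 0, 1207616, 0, 0, 0, 0, 0, 0⟩ ⟨0, 0, 0, 0, 0, 0, 1207616, 0, 0, 0, 0, 0, 0⟩ ⟨0, 0, 0, 0, 0, 0, 1761448, 0, 0, 0, 0, 0, 0⟩ ⟨0, 0, 0, 0, 0, 0, 1761448, 0, 0, 0, 0, 0, 0⟩ ⟨2048, 0, -158, 61, -27, 386, 3253602, 0, 0, 0, 0, 1074716180460, 0⟩))))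
    (.leaf (.skip 8 0)))
    (.s0
    (.leaf (.box ⟨1199, -74, -2048, 392, 210, 694, 682054, 0, 0, 0, 0, 0, 0⟩ ⟨0, 0, 0, 0, 0, 0, 901070, 0, 0, 0, 0, 0, 0⟩ ⟨0, 0, 0, 0, 0, 0, 901070, 0, 0, 0, 0, 0, 0⟩ ⟨0, 0, 0, 0, 0, 0, 1327271, 0, 0, 0, 0, 0, 0⟩ ⟨0, 0, 0, 0, 0, 0, 1327271, 0, 0, 0, 0, 0, 0⟩ ⟨1082, -20, -2048, 105, 57, 695, 2518516, 0, 0, 0, 0, 23741117853, 0⟩))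
    (.leaf (.skip 8 0)))

theorem parts6 :
    (runPathS conQ supQ (fun n Qs i d x => leafR conQ seg n Qs i d x) [.d0 true, .d1 true, .d2 false, .d0 true] tree140 0 0 0
      (joinS (lay.B * lay.size) rootQ) = true) ∧
    (runPathS conQ supQ (fun n Qs i d x => leafR conQ seg n Qs i d x) [.d0 true, .d1 true, .d2 true, .d0 false, .d1 false, .d1 false] tree141 0 0 0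
      (joinS (lay.B * lay.size) rootQ) = true) ∧
    (runPathS conQ supQ (fun n Qs i d x => leafR conQ seg n Qs i d x) [.d0 true, .d1 true, .d2 true, .d0 false, .d1 false, .d1 true] tree142 0 0 0
      (joinS (lay.B * lay.size) rootQ) = true) ∧
    (runPathS conQ supQ (fun n Qs i d x => leafR conQ seg n Qs i d x) [.d0 true, .d1 true, .d2 true, .d0 false, .d1 true] tree143 0 0 0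
      (joinS (lay.B * lay.size) rootQ) = true) ∧
    (runPathS conQ supQ (fun n Qs i d x => leafR conQ seg n Qs i d x) [.d0 true, .d1 true, .d2 true, .d0 true] tree144 0 0 0
      (joinS (lay.B * lay.size) rootQ) = true) :=
  ⟨by decide +kernel,
  by decide +kernel,
  by decide +kernel,
  by decide +kernel,
  by decide +kernel⟩

end Vale.Agent.P098.Six.S20
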